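import Vale.Agent.N037.Greedy

/-!
Polynomial removal for hosts with few distinct rows or few distinct columns.
-/

namespace Vale.Agent.N037

open Finset Vale.Agent.P037

theorem distFree_le {k n : ℕ} (H : Matrix (Fin k) (Fin k) Bool)
    (A B : Matrix (Fin n) (Fin n) Bool) (hB : numCopies H B = 0) :
    distFree H A ≤ (numDiff A B : ℝ) / (n : ℝ) ^ 2 := by
  unfold distFree
  apply div_le_div_of_nonneg_right _ (by positivity)
  have h : sInf {d : ℕ | ∃ B : Matrix (Fin n) (Fin n) Bool, numCopies H B = 0 ∧ numDiff A B = d}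
      ≤ numDiff A B := Nat.sInf_le ⟨B, hB, rfl⟩
  exact_mod_cast h

theorem one_le_numCopies {k n : ℕ} (H : Matrix (Fin k) (Fin k) Bool)
    (A : Matrix (Fin n) (Fin n) Bool) (h : 0 < distFree H A) : 1 ≤ numCopies H A := by
  by_contra hcon
  have h0 : numCopies H A = 0 := by omega
  have h1 := distFree_le H A A h0
  have h2 : numDiff A A = 0 := by
    unfold numDiff
    simp
  rw [h2] at h1
  simp only [Nat.cast_zero, zero_div] at h1
  linarith

theorem few_rows {k n m : ℕ} (hk : 1 ≤ k) (H : Matrix (Fin k) (Fin k) Bool)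
    (A : Matrix (Fin n) (Fin n) Bool) {ε : ℝ} (hn : 1 ≤ n) (h0 : 0 < ε) (h1 : ε < 1)
    (hd : ε ≤ distFree H A) (hm : (Set.range A.row).ncard ≤ m) :
    (ε / (4 * k * (m : ℝ) ^ k)) ^ (2 * k) * (n : ℝ) ^ (2 * k) ≤ (numCopies H A : ℝ) := by
  classical
  let T : Finset (Fin n → Bool) := univ.image A.row
  have hTm : T.card ≤ m := by
    have : (T : Set (Fin n → Bool)) = Set.range A.row := by simp [T]
    rw [← this, Set.ncard_coe_finset] at hm
    exact hm
  have hT : ∀ r, A r ∈ T := fun r => mem_image.2 ⟨r, mem_univ _, rfl⟩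
  have hm1 : 1 ≤ m := le_trans (card_pos.2 ⟨_, hT ⟨0, hn⟩⟩) hTm
  have hnR : (0 : ℝ) < n := by exact_mod_cast hn
  obtain ⟨D, hD⟩ : ∃ D : ℝ, D = k * (m : ℝ) ^ k := ⟨_, rfl⟩
  have hDpos : 0 < D := by rw [hD]; positivity
  obtain ⟨x, hx⟩ : ∃ x : ℝ, x = ε * n / (2 * D) := ⟨_, rfl⟩
  have hxpos : 0 < x := by rw [hx]; positivity
  have hxD : 2 * D * x = ε * n := by rw [hx]; field_simp
  have key : ∀ t : ℕ, (t : ℝ) < x → t ^ (2 * k) ≤ numCopies H A := by
    intro t ht
    by_contra hcon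
    have h2 : ((T.card ^ k * (k * t) : ℕ) : ℝ) ≤ D * t := by
      have h3 : T.card ^ k * (k * t) ≤ m ^ k * (k * t) :=
        Nat.mul_le_mul_right _ (Nat.pow_le_pow_left hTm k)
      calc ((T.card ^ k * (k * t) : ℕ) : ℝ) ≤ ((m ^ k * (k * t) : ℕ) : ℝ) := by exact_mod_cast h3
        _ = D * t := by rw [hD]; push_cast; ring
    have h4 : 2 * (D * t) < ε * n := by nlinarith
    have h5 : T.card ^ k * (k * t) < n := by
      have : ((T.card ^ k * (k * t) : ℕ) : ℝ) < n := by nlinarith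
      exact_mod_cast this
    obtain ⟨B, hB1, hB2⟩ := exists_free H A T hT h5 (not_le.1 hcon)
    have h6 : (numDiff A B : ℝ) ≤ 2 * ((T.card ^ k * (k * t) : ℕ) : ℝ) * n := by
      exact_mod_cast hB2
    have h7 : (numDiff A B : ℝ) < ε * (n : ℝ) ^ 2 := by nlinarith
    have h8 := hd.trans (distFree_le H A B hB1)
    rw [le_div_iff₀ (by positivity)] at h8
    linarith
  have hone : (1 : ℝ) ≤ numCopies H A := by
    exact_mod_cast one_le_numCopies H A (h0.trans_le hd)
  have heq : ε / (4 * k * (m : ℝ) ^ k) * n = x / 2 := by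
    rw [hx, mul_assoc, ← hD]; field_simp; ring
  rw [← mul_pow, heq]
  rcases le_or_gt x 2 with h2 | h2
  · exact (pow_le_one₀ (by positivity) (by linarith)).trans hone
  · have hc : 1 ≤ ⌈x⌉₊ := Nat.one_le_iff_ne_zero.2 (Nat.ceil_pos.2 hxpos).ne'
    have h3 : ((⌈x⌉₊ - 1 : ℕ) : ℝ) = (⌈x⌉₊ : ℝ) - 1 := by
      rw [Nat.cast_sub hc]; simp
    have h4 := Nat.ceil_lt_add_one hxpos.le
    have h5 := Nat.le_ceil x
    have h6 := key (⌈x⌉₊ - 1) (by rw [h3]; linarith)
    calc (x / 2) ^ (2 * k) ≤ ((⌈x⌉₊ - 1 : ℕ) : ℝ) ^ (2 * k) :=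
          pow_le_pow_left₀ (by positivity) (by rw [h3]; linarith) _
      _ ≤ _ := by exact_mod_cast h6

theorem numCopies_transpose {k n : ℕ} (H : Matrix (Fin k) (Fin k) Bool)
    (A : Matrix (Fin n) (Fin n) Bool) : numCopies H.transpose A.transpose = numCopies H A := by
  unfold numCopies
  exact Nat.card_congr ((Equiv.prodComm _ _).subtypeEquiv
    (fun x => ⟨fun h i j => h j i, fun h i j => h j i⟩))

theorem numDiff_transpose {n : ℕ} (A B : Matrix (Fin n) (Fin n) Bool) :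
    numDiff A.transpose B.transpose = numDiff A B := by
  unfold numDiff
  exact Nat.card_congr ((Equiv.prodComm _ _).subtypeEquiv (fun x => Iff.rfl))

theorem distFree_transpose {k n : ℕ} (H : Matrix (Fin k) (Fin k) Bool)
    (A : Matrix (Fin n) (Fin n) Bool) : distFree H.transpose A.transpose = distFree H A := by
  unfold distFree
  congr 3
  ext d
  constructor
  · rintro ⟨B, h1, h2⟩
    refine ⟨B.transpose, ?_, ?_⟩
    · rw [← numCopies_transpose, Matrix.transpose_transpose]; exact h1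
    · rw [← numDiff_transpose, Matrix.transpose_transpose]; exact h2
  · rintro ⟨B, h1, h2⟩
    exact ⟨B.transpose, by rw [numCopies_transpose]; exact h1,
      by rw [numDiff_transpose]; exact h2⟩

theorem few_lines {k n m : ℕ} (hk : 1 ≤ k) (H : Matrix (Fin k) (Fin k) Bool)
    (A : Matrix (Fin n) (Fin n) Bool) {ε : ℝ} (hn : 1 ≤ n) (h0 : 0 < ε) (h1 : ε < 1)
    (hd : ε ≤ distFree H A)
    (hm : (Set.range A.row).ncard ≤ m ∨ (Set.range A.col).ncard ≤ m) :
    (ε / (4 * k * (m : ℝ) ^ k)) ^ (2 * k) * (n : ℝ) ^ (2 * k) ≤ (numCopies H A : ℝ) := by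
  rcases hm with hm | hm
  · exact few_rows hk H A hn h0 h1 hd hm
  · rw [← numCopies_transpose]
    exact few_rows hk H.transpose A.transpose hn h0 h1 (by rw [distFree_transpose]; exact hd) hm

end Vale.Agent.N037
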