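import Vale.Agent.P037.Defs

/-!
Greedy blocks in a linear order, monotone retractions, and removal for hosts with few rows.
-/

namespace Vale.Agent.N037

open Finset Vale.Agent.P037

/-- The first `t` elements of a set (all of them if there are fewer). -/
theorem exists_first {n : ℕ} (S : Finset (Fin n)) (t : ℕ) :
    ∃ B : Finset (Fin n), B ⊆ S ∧ B.card ≤ t ∧
      ∀ x ∈ S, x ∉ B → B.card = t ∧ ∀ b ∈ B, b < x := by
  induction t with
  | zero => exact ⟨∅, by simp, by simp, by simp⟩
  | succ t ih =>
    obtain ⟨B, hBS, hBt, hB⟩ := ih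
    by_cases h : (S \ B).Nonempty
    · have hu : (S \ B).min' h ∈ S \ B := min'_mem _ _
      rw [mem_sdiff] at hu
      have h1 := hB _ hu.1 hu.2
      refine ⟨insert ((S \ B).min' h) B, insert_subset hu.1 hBS, ?_, ?_⟩
      · rw [card_insert_of_notMem hu.2]; omega
      · intro x hx hxB
        rw [mem_insert, not_or] at hxB
        refine ⟨by rw [card_insert_of_notMem hu.2, h1.1], ?_⟩
        intro b hb
        rcases mem_insert.1 hb with rfl | hb
        · exact lt_of_le_of_ne (min'_le _ _ (mem_sdiff.2 ⟨hx, hxB.2⟩)) (Ne.symm hxB.1)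
        · exact (hB x hx hxB.2).2 b hb
    · exact ⟨B, hBS, by omega, fun x hx hxB => absurd ⟨x, mem_sdiff.2 ⟨hx, hxB⟩⟩ h⟩

/-- After marking `k * t` positions, one weakly increasing unmarked occurrence of a word
forces `t ^ k` strictly increasing occurrences. -/
theorem greedy {n : ℕ} (t : ℕ) : ∀ (k : ℕ) (P : Fin k → Fin n → Prop),
    ∃ M : Finset (Fin n), M.card ≤ k * t ∧ ∀ p : Fin k → Fin n, Monotone p →
      (∀ i, p i ∉ M ∧ P i (p i)) →
        t ^ k ≤ Nat.card {r : Fin k ↪o Fin n // ∀ i, P i (r i)} := by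
  classical
  intro k
  induction k with
  | zero =>
    intro P
    refine ⟨∅, by simp, fun p _ _ => ?_⟩
    have : Nonempty {r : Fin 0 ↪o Fin n // ∀ i, P i (r i)} :=
      ⟨⟨OrderEmbedding.ofStrictMono p (fun i => i.elim0), fun i => i.elim0⟩⟩
    rw [pow_zero]
    exact Nat.card_pos
  | succ k ih =>
    intro P
    obtain ⟨B, hBS, hBt, hB⟩ := exists_first (univ.filter (P 0)) t
    obtain ⟨M, hM, hM2⟩ := ih (fun i x => P i.succ x ∧ ∀ b ∈ B, b < x)
    refine ⟨B ∪ M, ?_, fun p hp hP => ?_⟩
    · calc (B ∪ M).card ≤ B.card + M.card := card_union_le _ _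
        _ ≤ t + k * t := Nat.add_le_add hBt hM
        _ = (k + 1) * t := by ring
    · have h0 := hB (p 0) (by simpa using (hP 0).2)
        (fun h => (hP 0).1 (mem_union_left _ h))
      have h1 := hM2 (fun i => p i.succ) (fun i j hij => hp (Fin.succ_le_succ_iff.2 hij))
        (fun i => ⟨fun h => (hP i.succ).1 (mem_union_right _ h), (hP i.succ).2,
          fun b hb => lt_of_lt_of_le (h0.2 b hb) (hp (Fin.zero_le _))⟩)
      let F : B × {r : Fin k ↪o Fin n // ∀ i, P i.succ (r i) ∧ ∀ b ∈ B, b < r i} →
          {r : Fin (k + 1) ↪o Fin n // ∀ i, P i (r i)} := fun x =>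
        ⟨OrderEmbedding.ofStrictMono (Fin.cons x.1.1 x.2.1)
          (Fin.strictMono_cons.2 ⟨fun j => (x.2.2 j).2 _ x.1.2, x.2.1.strictMono⟩), by
          intro i
          refine Fin.cases ?_ (fun j => ?_) i
          · simpa using hBS x.1.2
          · simpa using (x.2.2 j).1⟩
      have hF : Function.Injective F := by
        intro x y hxy
        have h2 : ∀ i, (F x).1 i = (F y).1 i := fun i => by rw [hxy]
        apply Prod.ext
        · apply Subtype.ext
          simpa [F] using h2 0
        · apply Subtype.ext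
          apply RelEmbedding.ext
          intro j
          simpa [F] using h2 j.succ
      have h3 := Nat.card_le_card_of_injective F hF
      rw [Nat.card_prod, Nat.card_eq_fintype_card, Fintype.card_coe, h0.1] at h3
      calc t ^ (k + 1) = t * t ^ k := by ring
        _ ≤ _ := Nat.mul_le_mul_left _ h1
        _ ≤ _ := h3

/-- A monotone retraction onto the unmarked positions. -/
theorem retraction {n : ℕ} (M : Finset (Fin n)) (hM : M.card < n) :
    ∃ ρ : Fin n → Fin n, Monotone ρ ∧ (∀ x, ρ x ∉ M) ∧ ∀ x, x ∉ M → ρ x = x := by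
  have hne : (Mᶜ).Nonempty := by
    rw [← card_pos, card_compl, Fintype.card_fin]; omega
  have hu := min'_mem _ hne
  refine ⟨fun x => (insert (Mᶜ.min' hne) (Mᶜ.filter (· ≤ x))).max' (insert_nonempty _ _),
    ?_, ?_, ?_⟩
  · intro x y hxy
    apply max'_subset
    apply insert_subset_insert
    intro z hz
    rw [mem_filter] at hz ⊢
    exact ⟨hz.1, hz.2.trans hxy⟩
  · intro x
    have h := max'_mem (insert (Mᶜ.min' hne) (Mᶜ.filter (· ≤ x))) (insert_nonempty _ _)
    rcases mem_insert.1 h with h | h
    · simp only [h]; exact mem_compl.1 hu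
    · exact mem_compl.1 (mem_filter.1 h).1
  · intro x hx
    apply le_antisymm
    · apply max'_le
      intro y hy
      rcases mem_insert.1 hy with h | h
      · rw [h]; exact min'_le _ _ (mem_compl.2 hx)
      · exact (mem_filter.1 h).2
    · apply le_max'
      exact mem_insert_of_mem (mem_filter.2 ⟨mem_compl.2 hx, le_rfl⟩)

/-- Removal for a host whose rows all lie in a set `T`: few copies force a free matrix nearby. -/
theorem exists_free {k n t : ℕ} (H : Matrix (Fin k) (Fin k) Bool)
    (A : Matrix (Fin n) (Fin n) Bool) (T : Finset (Fin n → Bool)) (hT : ∀ r, A r ∈ T)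
    (ht : T.card ^ k * (k * t) < n) (hN : numCopies H A < t ^ (2 * k)) :
    ∃ B : Matrix (Fin n) (Fin n) Bool, numCopies H B = 0 ∧
      numDiff A B ≤ 2 * (T.card ^ k * (k * t)) * n := by
  classical
  choose MR hMR hMR2 using fun w : Fin k → Fin n → Bool =>
    greedy (n := n) t k (fun i x => A x = w i)
  choose MC hMC hMC2 using fun w : Fin k → Fin n → Bool =>
    greedy (n := n) t k (fun j y => ∀ i, w i y = H i j)
  let W : Finset (Fin k → Fin n → Bool) := Fintype.piFinset (fun _ => T)
  have hW : W.card = T.card ^ k := by simp [W]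
  have hR : (W.biUnion MR).card ≤ T.card ^ k * (k * t) := by
    rw [← hW]; exact card_biUnion_le_card_mul _ _ _ (fun w _ => hMR w)
  have hC : (W.biUnion MC).card ≤ T.card ^ k * (k * t) := by
    rw [← hW]; exact card_biUnion_le_card_mul _ _ _ (fun w _ => hMC w)
  obtain ⟨ρ, hρ, hρ1, hρ2⟩ := retraction (W.biUnion MR) (hR.trans_lt ht)
  obtain ⟨σ, hσ, hσ1, hσ2⟩ := retraction (W.biUnion MC) (hC.trans_lt ht)
  refine ⟨fun r c => A (ρ r) (σ c), ?_, ?_⟩
  · by_contra hne
    obtain ⟨⟨⟨r, c⟩, hrc⟩⟩ := (Nat.card_ne_zero.1 hne).1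
    let w : Fin k → Fin n → Bool := fun i => A (ρ (r i))
    have hw : w ∈ W := by
      simp only [W, Fintype.mem_piFinset]
      exact fun i => hT _
    have h1 := hMR2 w (fun i => ρ (r i)) (hρ.comp r.monotone)
      (fun i => ⟨fun h => hρ1 _ (mem_biUnion.2 ⟨w, hw, h⟩), rfl⟩)
    have h2 := hMC2 w (fun j => σ (c j)) (hσ.comp c.monotone)
      (fun j => ⟨fun h => hσ1 _ (mem_biUnion.2 ⟨w, hw, h⟩), fun i => hrc i j⟩)
    let F : {r : Fin k ↪o Fin n // ∀ i, A (r i) = w i} ×
        {c : Fin k ↪o Fin n // ∀ j i, w i (c j) = H i j} →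
        {rc : (Fin k ↪o Fin n) × (Fin k ↪o Fin n) // IsCopy H A rc.1 rc.2} := fun x =>
      ⟨(x.1.1, x.2.1), fun i j => by
        have h := x.1.2 i
        have h' := x.2.2 j i
        simp only
        rw [h]; exact h'⟩
    have hF : Function.Injective F := by
      intro x y hxy
      have h := congrArg Subtype.val hxy
      exact Prod.ext (Subtype.ext (congrArg Prod.fst h)) (Subtype.ext (congrArg Prod.snd h))
    have h3 := Nat.card_le_card_of_injective F hF
    rw [Nat.card_prod] at h3
    have h4 : t ^ (2 * k) ≤ numCopies H A := by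
      calc t ^ (2 * k) = t ^ k * t ^ k := by ring
        _ ≤ _ := Nat.mul_le_mul h1 h2
        _ ≤ _ := h3
    omega
  · unfold numDiff
    rw [Nat.card_eq_fintype_card, Fintype.card_subtype]
    calc _ ≤ ((W.biUnion MR) ×ˢ (univ : Finset (Fin n)) ∪
          (univ : Finset (Fin n)) ×ˢ (W.biUnion MC)).card := by
          apply card_le_card
          intro x hx
          rw [mem_filter] at hx
          by_contra hcon
          simp only [mem_union, mem_product, mem_univ, and_true, true_and, not_or] at hcon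
          apply hx.2
          simp only [hρ2 _ hcon.1, hσ2 _ hcon.2]
      _ ≤ _ := card_union_le _ _
      _ ≤ T.card ^ k * (k * t) * n + n * (T.card ^ k * (k * t)) := by
          rw [card_product, card_product, card_univ, Fintype.card_fin]
          exact Nat.add_le_add (Nat.mul_le_mul_right _ hR) (Nat.mul_le_mul_left _ hC)
      _ = _ := by ring

end Vale.Agent.N037
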