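import Vale.Agent.P037.Bdl.B1

/-!
The hard hosts for `H5` have few distinct rows and columns.
-/

namespace Vale.Agent.N037

open Vale.Agent.P037 Vale.Agent.P037.Mini Filter Topology

theorem ncard_range_le {α β γ : Type*} [Fintype β] [Nonempty γ] (f : α → γ) (φ : α → β)
    (h : ∀ i j, φ i = φ j → f i = f j) : (Set.range f).ncard ≤ Fintype.card β := by
  obtain ⟨e, he⟩ := (Function.factorsThrough_iff (f := φ) f).1 (fun i j hij => h i j hij)
  have h1 : Set.range f ⊆ e '' Set.univ := by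
    rintro _ ⟨i, rfl⟩
    exact ⟨φ i, trivial, by rw [he]; rfl⟩
  calc (Set.range f).ncard ≤ (e '' Set.univ).ncard :=
        Set.ncard_le_ncard h1 (Set.toFinite _)
    _ ≤ (Set.univ : Set β).ncard := Set.ncard_image_le (Set.toFinite _)
    _ = Fintype.card β := by rw [Set.ncard_univ, Nat.card_eq_fintype_card]

variable {L m : ℕ}

theorem nd_congr (s : ℕ) {p q : ℕ} (h : p / m = q / m) : nd L m s p = nd L m s q := by
  unfold nd wid
  rw [← Nat.div_div_eq_div_mul, ← Nat.div_div_eq_div_mul, h]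

theorem adj_congr (f : Bool) {x x' : Row L m} (y : Row L m) (h1 : x.cls = x'.cls)
    (h2 : (x.par : ℕ) / m = (x'.par : ℕ) / m) : adj f x y ↔ adj f x' y := by
  obtain ⟨c, p⟩ := x
  obtain ⟨c', p'⟩ := x'
  obtain ⟨d, q⟩ := y
  simp only at h1 h2
  subst h1
  cases c <;> cases d <;>
    first
      | exact Iff.rfl
      | simp only [adj, tc, nd_congr _ h2]

/-- the class and the leaf of a line of the large matrix -/
noncomputable def code {n : ℕ} (ι : Row L m ↪o Fin n) (i : Fin n) :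
    Option (Cls L × Fin (2 ^ L)) := by
  classical
  exact if h : ∃ x, ι x = i then
    some (h.choose.cls, ⟨(h.choose.par : ℕ) / m, Nat.div_lt_of_lt_mul
      (lt_of_lt_of_eq h.choose.par.2 (mul_comm _ _))⟩) else none

theorem code_eq {n : ℕ} (ι : Row L m ↪o Fin n) (f : Bool) {i i' : Fin n}
    (h : code ι i = code ι i') (j : Fin n) (hj : ∃ x y, ι x = i ∧ ι y = j ∧ adj f x y) :
    ∃ x y, ι x = i' ∧ ι y = j ∧ adj f x y := by
  obtain ⟨x, y, hx, hy, hxy⟩ := hj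
  have h1 : ∃ x, ι x = i := ⟨x, hx⟩
  unfold code at h
  rw [dif_pos h1] at h
  by_cases h2 : ∃ x, ι x = i'
  · rw [dif_pos h2] at h
    simp only [Option.some.injEq, Prod.mk.injEq, Fin.mk.injEq] at h
    have h3 : h1.choose = x := ι.injective (h1.choose_spec.trans hx.symm)
    rw [h3] at h
    exact ⟨h2.choose, y, h2.choose_spec, hy, (adj_congr f y h.1 h.2).1 hxy⟩
  · rw [dif_neg h2] at h
    exact absurd h (by simp)

theorem card_code (L : ℕ) :
    Fintype.card (Option (Cls L × Fin (2 ^ L))) = (34 * L + 35) * 2 ^ L + 1 := by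
  rw [Fintype.card_option, Fintype.card_prod, card_cls, Fintype.card_fin]

theorem rows_le {n : ℕ} (ι : Row L m ↪o Fin n) :
    (Set.range (bigMat ι).row).ncard ≤ (34 * L + 35) * 2 ^ L + 1 := by
  rw [← card_code]
  apply ncard_range_le _ (code ι)
  intro i i' h
  funext j
  simp only [Matrix.row_apply, bigMat, decide_eq_decide]
  exact ⟨code_eq ι false h j, code_eq ι false h.symm j⟩

theorem cols_le {n : ℕ} (ι : Row L m ↪o Fin n) :
    (Set.range (bigMat ι).col).ncard ≤ (34 * L + 35) * 2 ^ L + 1 := by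
  rw [← card_code]
  apply ncard_range_le _ (code ι)
  intro i i' h
  funext j
  simp only [Matrix.col_apply, bigMat, decide_eq_decide]
  have key : ∀ i : Fin n, (∃ x y, ι x = j ∧ ι y = i ∧ adj false x y) ↔
      ∃ x y, ι x = i ∧ ι y = j ∧ adj true x y := by
    intro i
    constructor
    · rintro ⟨x, y, hx, hy, hxy⟩
      exact ⟨y, x, hy, hx, (adj_symm false x y).1 hxy⟩
    · rintro ⟨x, y, hx, hy, hxy⟩
      exact ⟨y, x, hy, hx, (adj_symm false y x).2 hxy⟩
  rw [key, key]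
  exact ⟨code_eq ι true h j, code_eq ι true h.symm j⟩

/-- The hard host of depth `L`, of size `(34 L + 35) 2 ^ L m`. -/
theorem host (hL : 1 ≤ L) (hm : 1 ≤ m) :
    ∃ A : Matrix (Fin ((34 * L + 35) * (2 ^ L * m))) (Fin ((34 * L + 35) * (2 ^ L * m))) Bool,
      1 / (34 * (L : ℝ) + 35) ^ 2 ≤ distFree H5 A ∧
      (numCopies H5 A : ℝ) * 2 ^ L ≤ (((34 * L + 35) * (2 ^ L * m) : ℕ) : ℝ) ^ 10 ∧
      (Set.range A.row).ncard ≤ (34 * L + 35) * 2 ^ L + 1 ∧
      (Set.range A.col).ncard ≤ (34 * L + 35) * 2 ^ L + 1 := by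
  let e : Row L m ≃o Fin ((34 * L + 35) * (2 ^ L * m)) :=
    (Fintype.orderIsoFinOfCardEq _ (card_row L m)).symm
  refine ⟨bigMat e.toOrderEmbedding, ?_, ?_, rows_le _, cols_le _⟩
  · refine le_trans (le_of_eq ?_) (dist_ge hL e.toOrderEmbedding)
    have : (0 : ℝ) < m := by exact_mod_cast hm
    push_cast
    field_simp
  · have h1 := Mini.numCopies_le e.toOrderEmbedding
    obtain ⟨n, hn⟩ : ∃ n, n = (34 * L + 35) * (2 ^ L * m) := ⟨_, rfl⟩
    have h3 : 2 ^ L * m ≤ n := by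
      rw [hn]; exact Nat.le_mul_of_pos_left _ (by positivity)
    have h2 : numCopies H5 (bigMat e.toOrderEmbedding) * 2 ^ L ≤ n ^ 10 := by
      calc numCopies H5 (bigMat e.toOrderEmbedding) * 2 ^ L
          ≤ (2 ^ L * m * m * (n ^ 4 * n ^ 4)) * 2 ^ L :=
            Nat.mul_le_mul_right _ (by rw [hn]; exact h1)
        _ = (2 ^ L * m) * (2 ^ L * m) * n ^ 8 := by ring
        _ ≤ n * n * n ^ 8 := by gcongr
        _ = n ^ 10 := by ring
    rw [hn] at h2
    exact_mod_cast h2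

theorem tight {a : ℝ} (ha : a < 1) :
    ¬ ∃ c C : ℝ, 0 < c ∧ 0 < C ∧
      ∀ (n m : ℕ) (ε : ℝ) (A : Matrix (Fin n) (Fin n) Bool), 1 ≤ n → 0 < ε → ε < 1 →
        ε ≤ distFree H5 A → (Set.range A.row).ncard ≤ m → (Set.range A.col).ncard ≤ m →
          c * ε ^ C / (m : ℝ) ^ a * (n : ℝ) ^ 10 ≤ (numCopies H5 A : ℝ) := by
  rintro ⟨c, C, hc, hC, h⟩
  obtain ⟨d, hd⟩ := exists_nat_ge (2 * C + 1)
  obtain ⟨b, hb⟩ : ∃ b : ℝ, b = max a 0 := ⟨_, rfl⟩
  have hb0 : 0 ≤ b := by rw [hb]; exact le_max_right _ _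
  have hab : a ≤ b := by rw [hb]; exact le_max_left _ _
  have hb1 : b < 1 := by rw [hb]; exact max_lt ha one_pos
  obtain ⟨r, hr⟩ : ∃ r : ℝ, r = 2 ^ (1 - b) := ⟨_, rfl⟩
  have hr1 : 1 < r := by rw [hr]; exact Real.one_lt_rpow (by norm_num) (by linarith)
  have key : ∀ L : ℕ, 1 ≤ L → c * r ^ L ≤ (70 : ℝ) ^ d * (L : ℝ) ^ d := by
    intro L hL
    obtain ⟨A, hA1, hA2, hA3, hA4⟩ := host (m := 1) hL le_rfl
    have hL1 : (1 : ℝ) ≤ (L : ℝ) := by exact_mod_cast hL
    obtain ⟨K, hK⟩ : ∃ K : ℝ, K = 34 * (L : ℝ) + 35 := ⟨_, rfl⟩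
    have hK1 : 1 < K := by rw [hK]; linarith
    have hK0 : 0 < K := by linarith
    rw [← hK] at hA1
    have hε1 : 1 / K ^ 2 < 1 := by
      rw [div_lt_one (by positivity)]
      nlinarith
    have h1 := h _ _ (1 / K ^ 2) A (Nat.pos_of_ne_zero (by positivity)) (by positivity) hε1 hA1 hA3 hA4
    obtain ⟨N, hN⟩ : ∃ N : ℝ, N = (((34 * L + 35) * (2 ^ L * 1) : ℕ) : ℝ) ^ 10 := ⟨_, rfl⟩
    have hN0 : 0 < N := by rw [hN]; positivity
    rw [← hN] at h1 hA2
    obtain ⟨M, hM⟩ : ∃ M : ℝ, M = (((34 * L + 35) * 2 ^ L + 1 : ℕ) : ℝ) := ⟨_, rfl⟩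
    rw [← hM] at h1
    have h2L : (1 : ℝ) ≤ 2 ^ L := one_le_pow₀ (by norm_num)
    have hMK : M = K * 2 ^ L + 1 := by rw [hM, hK]; push_cast; ring
    have hM1 : 1 ≤ M := by rw [hMK]; nlinarith
    have hM2 : M ≤ (K + 1) * 2 ^ L := by rw [hMK]; nlinarith
    have hMa : M ^ a ≤ (K + 1) * (2 ^ L) ^ b := by
      calc M ^ a ≤ M ^ b := Real.rpow_le_rpow_of_exponent_le hM1 hab
        _ ≤ ((K + 1) * 2 ^ L) ^ b := Real.rpow_le_rpow (by linarith) hM2 hb0
        _ = (K + 1) ^ b * (2 ^ L) ^ b := Real.mul_rpow (by linarith) (by positivity)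
        _ ≤ (K + 1) ^ (1 : ℝ) * (2 ^ L) ^ b :=
            mul_le_mul_of_nonneg_right
              (Real.rpow_le_rpow_of_exponent_le (by linarith) hb1.le) (by positivity)
        _ = _ := by rw [Real.rpow_one]
    have hMa0 : 0 < M ^ a := Real.rpow_pos_of_pos (by linarith) _
    have h4 : (1 / K ^ 2) ^ C = (K ^ (2 * C))⁻¹ := by
      rw [one_div, Real.inv_rpow (by positivity), ← Real.rpow_natCast, ← Real.rpow_mul hK0.le]
      norm_num
    have hKC : 0 < K ^ (2 * C) := by positivity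
    have h2 : c * (K ^ (2 * C))⁻¹ / M ^ a * 2 ^ L ≤ 1 := by
      have h3 : (c * (K ^ (2 * C))⁻¹ / M ^ a * 2 ^ L) * N ≤ 1 * N := by
        calc (c * (K ^ (2 * C))⁻¹ / M ^ a * 2 ^ L) * N
            = (c * (1 / K ^ 2) ^ C / M ^ a * N) * 2 ^ L := by rw [h4]; ring
          _ ≤ (numCopies H5 A : ℝ) * 2 ^ L := by gcongr
          _ ≤ 1 * N := by rw [one_mul]; exact hA2
      exact le_of_mul_le_mul_right h3 hN0
    have h5 : c * 2 ^ L ≤ K ^ (2 * C) * M ^ a := by
      calc c * 2 ^ L = (c * (K ^ (2 * C))⁻¹ / M ^ a * 2 ^ L) * (K ^ (2 * C) * M ^ a) := by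
            field_simp
        _ ≤ 1 * (K ^ (2 * C) * M ^ a) := by gcongr
        _ = _ := one_mul _
    have h6 : r ^ L * ((2 : ℝ) ^ L) ^ b = 2 ^ L := by
      rw [hr, ← Real.rpow_natCast, ← Real.rpow_natCast, ← Real.rpow_mul (by norm_num),
        ← Real.rpow_mul (by norm_num), ← Real.rpow_add (by norm_num)]
      congr 1; ring
    have h7 : K ^ (2 * C) * (K + 1) ≤ (70 * (L : ℝ)) ^ (d : ℝ) := by
      have h70 : K + 1 ≤ 70 * (L : ℝ) := by rw [hK]; linarith
      calc K ^ (2 * C) * (K + 1) ≤ (70 * (L : ℝ)) ^ (2 * C) * (70 * (L : ℝ)) :=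
            mul_le_mul (Real.rpow_le_rpow hK0.le (by linarith) (by positivity)) h70
              (by linarith) (by positivity)
        _ = (70 * (L : ℝ)) ^ (2 * C + 1) := by
            rw [Real.rpow_add (by positivity), Real.rpow_one]
        _ ≤ _ := Real.rpow_le_rpow_of_exponent_le (by linarith) hd
    rw [Real.rpow_natCast, mul_pow] at h7
    have h8 : (0 : ℝ) < ((2 : ℝ) ^ L) ^ b := by positivity
    refine le_trans (le_of_mul_le_mul_right ?_ h8) h7
    calc c * r ^ L * ((2 : ℝ) ^ L) ^ b = c * 2 ^ L := by rw [mul_assoc, h6]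
      _ ≤ K ^ (2 * C) * M ^ a := h5
      _ ≤ K ^ (2 * C) * ((K + 1) * (2 ^ L) ^ b) := by gcongr
      _ = _ := by ring
  have hlim := tendsto_pow_const_div_const_pow_of_one_lt d hr1
  have h70 : (0 : ℝ) < 70 ^ d := by positivity
  have hev := (hlim.eventually (gt_mem_nhds (show (0 : ℝ) < c / 70 ^ d by positivity))).and
    (eventually_ge_atTop 1)
  obtain ⟨L, hL1, hL2⟩ := hev.exists
  have h8 := key L hL2
  rw [div_lt_div_iff₀ (by positivity) h70] at hL1
  linarith only [hL1, h8]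

end Vale.Agent.N037
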